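import Vale.Agent.P078.Finite.Setting

/-!
# Splitting the source projection of a normaliser

For a normaliser `v` of a MASA the projection `v* v` is the sum of a piece on which `v` lies in
`A` and three pieces which `v` moves to orthogonal pieces.
-/

namespace Vale.Agent.P078.Finite

open ComplexInnerProductSpace
open Filter Topology
open Vale.Agent.P078 Vale.Agent.P078.General

universe u

variable {H : Type u} [NormedAddCommGroup H] [InnerProductSpace ℂ H] [CompleteSpace H]
variable {M : VonNeumannAlgebra H} {A : StarSubalgebra ℂ (H →L[ℂ] H)} {Ω : H} {v : H →L[ℂ] H}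

namespace IsNormaliser

variable (hv : IsNormaliser M A v)
include hv

lemma mem : v ∈ M := hv.1

lemma src_proj : IsStarProjection (star v * v) := hv.2.1

lemma src_mem : star v * v ∈ A := hv.2.2.1

lemma rng_mem : v * star v ∈ A := hv.2.2.2.1

lemma conj_mem {a : H →L[ℂ] H} (ha : a ∈ A) : v * a * star v ∈ A := (hv.2.2.2.2 a ha).1

lemma conj_mem' {a : H →L[ℂ] H} (ha : a ∈ A) : star v * a * v ∈ A := (hv.2.2.2.2 a ha).2

lemma mul_src : v * (star v * v) = v := by
  rw [← sub_eq_zero, ← CStarRing.star_mul_self_eq_zero_iff]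
  have hs := (src_proj hv).isIdempotentElem.eq
  simp only [star_sub, star_mul, star_star, sub_mul, mul_sub, mul_assoc] at hs ⊢
  simp only [hs, sub_self]

lemma src_mul_star : star v * v * star v = star v := by
  have h1 := congrArg star (mul_src hv)
  rwa [star_mul, star_mul, star_star] at h1

lemma rng_mul : v * star v * v = v := by rw [mul_assoc, mul_src hv]

lemma rng_proj : IsStarProjection (v * star v) := by
  refine ⟨?_, IsSelfAdjoint.mul_star_self v⟩
  change v * star v * (v * star v) = v * star v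
  rw [← mul_assoc, rng_mul hv]

lemma adjoint : IsNormaliser M A (star v) := by
  refine ⟨star_mem (mem hv), by simpa using rng_proj hv, by simpa using rng_mem hv,
    by simpa using src_mem hv, fun a ha => ?_⟩
  simpa using And.intro (conj_mem' hv ha) (conj_mem hv ha)

lemma conj_mul (hA : IsMASAIn M A) {a b : H →L[ℂ] H} (ha : a ∈ A) :
    v * a * star v * (v * b * star v) = v * (a * b) * star v := by
  calc v * a * star v * (v * b * star v) = v * (a * (star v * v)) * b * star v := by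
        simp only [mul_assoc]
    _ = v * (star v * v) * a * b * star v := by
        rw [hA.comm ha (src_mem hv)]; simp only [mul_assoc]
    _ = _ := by rw [mul_src hv]; simp only [mul_assoc]

lemma conj_proj (hA : IsMASAIn M A) {p : H →L[ℂ] H} (hpA : p ∈ A) (hp : IsStarProjection p) :
    IsStarProjection (v * p * star v) := by
  refine ⟨?_, ?_⟩
  · change v * p * star v * (v * p * star v) = _
    rw [conj_mul hv hA hpA, hp.isIdempotentElem.eq]
  · change star (v * p * star v) = _
    rw [star_mul, star_mul, star_star, hp.isSelfAdjoint.star_eq, mul_assoc]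

end IsNormaliser

variable (h : FinSetting M A Ω)
include h

/-- Products of bounded sequences converging in the trace norm converge. -/
lemma tendsto_mul {ι : Type*} {l : Filter ι} {b c : ι → (H →L[ℂ] H)} {z w : H →L[ℂ] H} {R : ℝ}
    (hb : ∀ n, b n ∈ M) (hc : ∀ n, c n ∈ M) (hz : z ∈ M) (hR : ∀ n, ‖c n‖ ≤ R)
    (hbz : Tendsto (fun n => b n Ω) l (𝓝 (z Ω))) (hcw : Tendsto (fun n => c n Ω) l (𝓝 (w Ω))) :
    Tendsto (fun n => (b n * c n) Ω) l (𝓝 ((z * w) Ω)) := by
  have h1 : Tendsto (fun n => ((b n - z) * c n) Ω) l (𝓝 0) := by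
    refine squeeze_zero_norm (a := fun n => R * ‖(b n - z) Ω‖) (fun n => ?_) ?_
    · exact (norm_mul_right_le h (sub_mem (hb n) hz) (hc n)).trans
        (mul_le_mul_of_nonneg_right (hR n) (norm_nonneg _))
    · simpa using ((hbz.sub_const (z Ω)).norm.const_mul R)
  have h2 : Tendsto (fun n => z (c n Ω)) l (𝓝 (z (w Ω))) := (z.continuous.tendsto _).comp hcw
  have h3 := h1.add h2
  rw [zero_add] at h3
  exact h3.congr (fun n => by simp)

lemma eq_of_tendsto {ι : Type*} {l : Filter ι} [l.NeBot] {f : ι → H} {z w : H →L[ℂ] H}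
    (hz : z ∈ M) (hw : w ∈ M) (h1 : Tendsto f l (𝓝 (z Ω))) (h2 : Tendsto f l (𝓝 (w Ω))) :
    z = w :=
  sub_eq_zero.1 (h.faithful _ (sub_mem hz hw) (by simp [tendsto_nhds_unique h1 h2]))

lemma proj_norm_sq {p : H →L[ℂ] H} (hp : IsStarProjection p) :
    ‖p Ω‖ ^ 2 = (⟪Ω, p Ω⟫).re := by
  rw [@norm_sq_eq_re_inner ℂ, RCLike.re_to_complex, inner_eq h, hp.isSelfAdjoint.star_eq,
    hp.isIdempotentElem.eq]

/-- A trace-norm limit of elements of `A` bounded in norm lies in `A`. -/
lemma exists_limit_A {b : ℕ → (H →L[ℂ] H)} (hb : ∀ n, b n ∈ A) {R : ℝ} (hR : ∀ n, ‖b n‖ ≤ R)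
    (hC : CauchySeq (fun n => b n Ω)) :
    ∃ z ∈ A, ‖z‖ ≤ R ∧ Tendsto (fun n => b n Ω) atTop (𝓝 (z Ω)) ∧
      ((∀ n, IsSelfAdjoint (b n)) → IsSelfAdjoint z) := by
  have hbM := fun n => h.masa.mem_M (hb n)
  obtain ⟨z, hzM, hzR, hz, hsa⟩ := exists_limit h hbM hR hC
  refine ⟨z, h.masa.mem_of_commute (fun a ha => ?_)
    (fun m hm => commute_of_mem_centralizer hzM hm), hzR, hz, hsa⟩
  have haM := h.masa.mem_M ha
  refine eq_of_tendsto h (mul_mem haM hzM) (mul_mem hzM haM)
    (tendsto_mul h (b := fun _ => a) (c := b) (fun _ => haM) hbM haM hR tendsto_const_nhds hz) ?_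
  refine (tendsto_mul h (b := b) (c := fun _ => a) hbM (fun _ => haM) hzM (fun _ => le_rfl) hz
    tendsto_const_nhds).congr (fun n => ?_)
  rw [h.masa.comm ha (hb n)]

omit h in
/-- `p` is separated by `v`. -/
private def Sep (_M : VonNeumannAlgebra H) (A : StarSubalgebra ℂ (H →L[ℂ] H)) (v p : H →L[ℂ] H) :
    Prop :=
  p ∈ A ∧ IsStarProjection p ∧ p * (star v * v) = p ∧ p * (v * p * star v) = 0

/-- A maximal separated projection. -/
private lemma exists_maximal (hv : IsNormaliser M A v) :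
    ∃ p, Sep M A v p ∧ ∀ q, q * p = 0 → IsStarProjection q → q ∈ A →
      Sep M A v (p + q) → q = 0 := by
  classical
  let Add : (H →L[ℂ] H) → (H →L[ℂ] H) → Prop :=
    fun p q => q * p = 0 ∧ IsStarProjection q ∧ q ∈ A ∧ Sep M A v (p + q)
  have hstep : ∀ p, Sep M A v p → ∃ q, Add p q ∧ ∀ q', Add p q' → ‖q' Ω‖ ≤ 2 * ‖q Ω‖ := by
    intro p hp
    have hne : {x : ℝ | ∃ q, Add p q ∧ x = ‖q Ω‖}.Nonempty :=
      ⟨‖(0 : H →L[ℂ] H) Ω‖, 0, ⟨zero_mul _, IsStarProjection.zero (H →L[ℂ] H), zero_mem A,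
        by rwa [add_zero]⟩, rfl⟩
    have hbd : BddAbove {x : ℝ | ∃ q, Add p q ∧ x = ‖q Ω‖} := by
      refine ⟨‖Ω‖, ?_⟩
      rintro _ ⟨q, hq, rfl⟩
      exact (q.le_opNorm Ω).trans
        (mul_le_of_le_one_left (norm_nonneg _) (hq.2.1.norm_le))
    rcases le_or_gt (sSup {x : ℝ | ∃ q, Add p q ∧ x = ‖q Ω‖}) 0 with h0 | h0
    · obtain ⟨_, q, hq, rfl⟩ := hne
      refine ⟨q, hq, fun q' hq' => ?_⟩
      exact ((le_csSup hbd ⟨q', hq', rfl⟩).trans h0).trans (by positivity)
    · obtain ⟨_, ⟨q, hq, rfl⟩, hlt⟩ := exists_lt_of_lt_csSup hne (half_lt_self h0)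
      refine ⟨q, hq, fun q' hq' => ?_⟩
      have := le_csSup hbd ⟨q', hq', rfl⟩
      linarith
  choose g hg hgmax using hstep
  have h0 : Sep M A v 0 := ⟨zero_mem A, IsStarProjection.zero _, zero_mul _, zero_mul _⟩
  let s : ℕ → {p // Sep M A v p} :=
    fun n => Nat.rec ⟨0, h0⟩ (fun _ p => ⟨p.1 + g p.1 p.2, (hg p.1 p.2).2.2.2⟩) n
  let p : ℕ → (H →L[ℂ] H) := fun n => (s n).1
  have hsucc : ∀ n, p (n + 1) = p n + g _ (s n).2 := fun n => rfl
  have hmono : ∀ n m, n ≤ m → p n * p m = p n := by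
    intro n m hnm
    induction m, hnm using Nat.le_induction with
    | base => exact (s n).2.2.1.isIdempotentElem
    | succ m _ ih =>
      have h1 : p m * g _ (s m).2 = 0 :=
        (h.masa.comm (s m).2.1 (hg _ (s m).2).2.2.1).trans (hg _ (s m).2).1
      rw [hsucc, mul_add, ih, ← ih, mul_assoc, h1, mul_zero, add_zero]
  have hsq : ∀ n m, n ≤ m → ‖(p m - p n) Ω‖ ^ 2 = ‖p m Ω‖ ^ 2 - ‖p n Ω‖ ^ 2 := by
    intro n m hnm
    rw [proj_norm_sq h ((s n).2.2.1.sub_of_mul_eq_left (s m).2.2.1 (hmono n m hnm)),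
      proj_norm_sq h (s m).2.2.1, proj_norm_sq h (s n).2.2.1, sub_apply, inner_sub_right,
      Complex.sub_re]
  have hle : ∀ n, ‖p n Ω‖ ≤ ‖Ω‖ := fun n =>
    ((p n).le_opNorm Ω).trans (mul_le_of_le_one_left (norm_nonneg _) (s n).2.2.1.norm_le)
  have hC : CauchySeq (fun n => p n Ω) := by
    have hm : Monotone (fun n => ‖p n Ω‖ ^ 2) := fun n m hnm => by
      have := sq_nonneg ‖(p m - p n) Ω‖
      simp only
      linarith [hsq n m hnm]
    have hb : BddAbove (Set.range (fun n => ‖p n Ω‖ ^ 2)) :=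
      ⟨‖Ω‖ ^ 2, by rintro _ ⟨n, rfl⟩; exact pow_le_pow_left₀ (norm_nonneg _) (hle n) 2⟩
    have hc := (tendsto_atTop_ciSup hm hb).cauchySeq
    rw [Metric.cauchySeq_iff'] at hc ⊢
    intro ε hε
    obtain ⟨N, hN⟩ := hc (ε ^ 2) (by positivity)
    refine ⟨N, fun n hn => ?_⟩
    refine (sq_lt_sq₀ dist_nonneg hε.le).1 ?_
    rw [dist_eq_norm, ← sub_apply, hsq N n hn]
    exact (le_abs_self _).trans_lt (by simpa [Real.dist_eq] using hN n hn)
  obtain ⟨z, hzA, -, hz, hzs⟩ := exists_limit_A h (fun n => (s n).2.1)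
    (fun n => (s n).2.2.1.norm_le) hC
  have hzM := h.masa.mem_M hzA
  have hpM : ∀ n, p n ∈ M := fun n => h.masa.mem_M (s n).2.1
  have hp1 : ∀ n, ‖p n‖ ≤ 1 := fun n => (s n).2.2.1.norm_le
  have hsM := h.masa.mem_M (hv.src_mem)
  have hzp : ∀ n, p n * z = p n := by
    intro n
    refine eq_of_tendsto h (mul_mem (hpM n) hzM) (hpM n)
      (tendsto_mul h (b := fun _ => p n) (fun _ => hpM n) hpM (hpM n) hp1 tendsto_const_nhds hz) ?_
    refine tendsto_const_nhds.congr' ?_
    filter_upwards [eventually_ge_atTop n] with m hm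
    rw [hmono n m hm]
  have hz2 : IsStarProjection z := by
    refine ⟨?_, hzs (fun n => (s n).2.2.1.isSelfAdjoint)⟩
    refine eq_of_tendsto h (mul_mem hzM hzM) hzM (tendsto_mul h hpM hpM hzM hp1 hz hz) ?_
    exact hz.congr (fun n => by rw [(s n).2.2.1.isIdempotentElem.eq])
  have hvzM : v * z * star v ∈ M := mul_mem (mul_mem hv.mem hzM) (star_mem hv.mem)
  have hz3 : z * (star v * v) = z := by
    refine eq_of_tendsto h (mul_mem hzM hsM) hzM
      (tendsto_mul h (c := fun _ => star v * v) hpM (fun _ => hsM) hzM (fun _ => le_rfl) hz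
        tendsto_const_nhds) ?_
    exact hz.congr (fun n => by rw [(s n).2.2.2.1])
  have hz4 : z * (v * z * star v) = 0 := by
    have hc : Tendsto (fun n => (v * p n * star v) Ω) atTop (𝓝 ((v * z * star v) Ω)) :=
      tendsto_mul h (b := fun n => v * p n) (c := fun _ => star v)
        (fun n => mul_mem hv.mem (hpM n)) (fun _ => star_mem hv.mem) (mul_mem hv.mem hzM)
        (fun _ => le_rfl) ((v.continuous.tendsto _).comp hz) tendsto_const_nhds
    refine eq_of_tendsto h (mul_mem hzM hvzM) (zero_mem M)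
      (tendsto_mul h (c := fun n => v * p n * star v) hpM
        (fun n => mul_mem (mul_mem hv.mem (hpM n)) (star_mem hv.mem)) hzM
        (fun n => (hv.conj_proj h.masa (s n).2.1 (s n).2.2.1).norm_le) hz hc) ?_
    refine tendsto_const_nhds.congr (fun n => ?_)
    rw [show p n * (v * p n * star v) = 0 from (s n).2.2.2.2]
  refine ⟨z, ⟨hzA, hz2, hz3, hz4⟩, fun q hqz hq hqA hqs => ?_⟩
  have hadd : ∀ n, Add (p n) q := by
    intro n
    have hqp : q * p n = 0 := by
      rw [← hzp n, h.masa.comm (s n).2.1 hzA, ← mul_assoc, hqz, zero_mul]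
    have hpA : p n ∈ A := (s n).2.1
    refine ⟨hqp, hq, hqA, add_mem hpA hqA, (s n).2.2.1.add hq ?_, ?_, ?_⟩
    · rwa [h.masa.comm hpA hqA]
    · have hqs' : q * (star v * v) = q := by
        have := hqs.2.2.1
        rwa [add_mul, hz3, add_right_inj] at this
      rw [add_mul, (s n).2.2.2.1, hqs']
    · have hkey : (z + q) * (p n + q) = p n + q := by
        rw [add_mul, mul_add, mul_add, h.masa.comm hzA hpA, hzp, hqp,
          h.masa.comm hzA hqA, hqz, hq.isIdempotentElem.eq, add_zero, zero_add]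
      have hcA := add_mem hzA hqA
      calc (p n + q) * (v * (p n + q) * star v)
          = (z + q) * (p n + q) * (v * ((z + q) * (p n + q)) * star v) := by rw [hkey]
        _ = (p n + q) * ((z + q) * (v * (z + q) * star v)) * (v * (p n + q) * star v) := by
            rw [← hv.conj_mul h.masa hcA, h.masa.comm hcA (add_mem hpA hqA)]
            simp only [mul_assoc]
        _ = 0 := by rw [hqs.2.2.2, mul_zero, zero_mul]
  have hq0 : Tendsto (fun n => ‖g _ (s n).2 Ω‖) atTop (𝓝 0) := by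
    have := ((hz.comp (tendsto_add_atTop_nat 1)).sub hz).norm
    rw [sub_self, norm_zero] at this
    refine this.congr (fun n => ?_)
    change ‖p (n + 1) Ω - p n Ω‖ = _
    rw [hsucc, add_apply, add_sub_cancel_left]
  refine h.faithful _ (h.masa.mem_M hqA) (norm_le_zero_iff.1 ?_)
  have := ge_of_tendsto' (hq0.const_mul (2 : ℝ)) (fun n => hgmax _ (s n).2 q (hadd n))
  simpa using this

omit h in
private lemma pieces_algebra {R : Type*} [CommRing R] {s p T U : R} (hs : s * s = s) (hp : p * p = p)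
    (hT : T * T = T) (hU : U * U = U) (hps : p * s = p) {p2 p3 f : R}
    (h2 : p2 = s * (1 - p) * T) (h3 : p3 = s * (1 - p) * (1 - T) * U)
    (hf : f = s * (1 - p) * (1 - T) * (1 - U)) :
    f + (p + p2 + p3) = s ∧ f * s = f ∧ f * T = 0 ∧ f * U = 0 ∧ f * p = 0 ∧ f * p2 = 0 ∧
      f * p3 = 0 ∧ p * p2 = 0 ∧ p * p3 = 0 ∧ p2 * p3 = 0 ∧ p2 * p = 0 ∧ p3 * p = 0 ∧
      p3 * p2 = 0 := by
  subst h2 h3 hf
  refine ⟨?_, ?_, ?_, ?_, ?_, ?_, ?_, ?_, ?_, ?_, ?_, ?_, ?_⟩
  · linear_combination (-1 : R) * hps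
  · linear_combination ((1 - p) * (1 - T) * (1 - U)) * hs
  · linear_combination (-(s * (1 - p) * (1 - U))) * hT
  · linear_combination (-(s * (1 - p) * (1 - T))) * hU
  · linear_combination (-(s * (1 - T) * (1 - U))) * hp
  · linear_combination (-(s * (1 - p) * (s * (1 - p)) * (1 - U))) * hT
  · linear_combination (-(s * (1 - p) * (s * (1 - p)) * (1 - T) * (1 - T))) * hU
  · linear_combination (-(s * T)) * hp
  · linear_combination (-(s * (1 - T) * U)) * hp
  · linear_combination (-(s * (1 - p) * (s * (1 - p)) * U)) * hT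
  · linear_combination (-(s * T)) * hp
  · linear_combination (-(s * (1 - T) * U)) * hp
  · linear_combination (-(s * (1 - p) * (s * (1 - p)) * U)) * hT

/-- A maximal separated projection leaves a rest on which `v` acts trivially. -/
private lemma conj_eq_self (hv : IsNormaliser M A v) {p : H →L[ℂ] H} (hp : Sep M A v p)
    (hmax : ∀ q, q * p = 0 → IsStarProjection q → q ∈ A → Sep M A v (p + q) → q = 0)
    {q : H →L[ℂ] H} (hqA : q ∈ A) (hq : IsStarProjection q) (hqs : q * (star v * v) = q)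
    (hqp : q * p = 0) (hqT : q * (v * p * star v) = 0) (hqU : q * (star v * p * v) = 0) :
    v * q * star v = q := by
  have hA := h.masa
  obtain ⟨hpA, hp, hps, hpv⟩ := hp
  set T := v * p * star v with hT_def
  set U := star v * p * v with hU_def
  set s := star v * v with hs_def
  set Q := v * q * star v with hQ_def
  have hsA : s ∈ A := hv.src_mem
  have hTA : T ∈ A := hv.conj_mem hpA
  have hUA : U ∈ A := hv.conj_mem' hpA
  have hQA : Q ∈ A := hv.conj_mem hqA
  have hQ : IsStarProjection Q := hv.conj_proj hA hqA hq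
  have hQ1A := sub_mem (one_mem A) hQA
  have hxA : q * (1 - Q) ∈ A := mul_mem hqA hQ1A
  have hx := hA.mul_proj hq hQ.one_sub hqA hQ1A
  have hpQ : p * Q = 0 := by
    have htQ : v * star v * Q = Q := by
      rw [hQ_def, ← mul_assoc (v * star v), ← mul_assoc (v * star v), hv.rng_mul]
    have hvU : v * U * star v = p * (v * star v) := by
      rw [hU_def, show v * (star v * p * v) * star v = v * star v * p * (v * star v) by
          simp only [mul_assoc],
        hA.comm hv.rng_mem hpA, mul_assoc, hv.rng_proj.isIdempotentElem.eq]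
    rw [← htQ, ← mul_assoc p, ← hvU, hv.conj_mul hA hUA, hA.comm hUA hqA, hqU, mul_zero,
      zero_mul]
  have hx0 : q * (1 - Q) = 0 := by
    refine hmax _ ?_ hx hxA ⟨add_mem hpA hxA, hp.add hx ?_, ?_, ?_⟩
    · rw [mul_assoc, hA.comm hQ1A hpA, ← mul_assoc, hqp, zero_mul]
    · rw [← mul_assoc, hA.comm hpA hqA, hqp, zero_mul]
    · rw [add_mul, hps, mul_assoc, hA.comm hQ1A hsA, ← mul_assoc, hqs]
    · have e1 : v * (q * (1 - Q)) * star v = Q * (v * (1 - Q) * star v) :=
        (hv.conj_mul hA hqA).symm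
      have e2 : p * (v * (q * (1 - Q)) * star v) = 0 := by rw [e1, ← mul_assoc, hpQ, zero_mul]
      have e3 : q * (1 - Q) * T = 0 := by
        rw [mul_assoc, hA.comm hQ1A hTA, ← mul_assoc, hqT, zero_mul]
      have e4 : q * (1 - Q) * (v * (q * (1 - Q)) * star v) = 0 := by
        rw [e1, mul_assoc, ← mul_assoc (1 - Q), sub_mul, one_mul, hQ.isIdempotentElem.eq,
          sub_self, zero_mul, mul_zero]
      rw [show v * (p + q * (1 - Q)) * star v = T + v * (q * (1 - Q)) * star v by
          rw [mul_add, add_mul],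
        add_mul, mul_add, mul_add, hpv, e2, e3, e4]
      simp
  have hqQ : q * Q = q := by
    rw [mul_sub, mul_one, sub_eq_zero] at hx0
    exact hx0.symm
  have htau : ⟪Ω, Q Ω⟫ = ⟪Ω, q Ω⟫ := by
    rw [hQ_def, mul_assoc, h.tracial v hv.mem _ (mul_mem (hA.mem_M hqA) (star_mem hv.mem)),
      mul_assoc, hqs]
  have hd : (Q - q) Ω = 0 := by
    have h2 := proj_norm_sq h (hq.sub_of_mul_eq_left hQ hqQ)
    rw [sub_apply, inner_sub_right, htau, sub_self, Complex.zero_re] at h2
    rw [sub_apply]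
    exact norm_eq_zero.1 (sq_eq_zero_iff.1 h2)
  exact sub_eq_zero.1 (h.faithful _ (sub_mem (hA.mem_M hQA) (hA.mem_M hqA)) hd)

/-- The splitting of the source projection of a normaliser. -/
theorem exists_split (hv : IsNormaliser M A v) :
    ∃ (f : H →L[ℂ] H) (p : Fin 3 → (H →L[ℂ] H)), (f ∈ A ∧ IsStarProjection f) ∧
      (∀ i, p i ∈ A ∧ IsStarProjection (p i)) ∧ (∀ i, f * p i = 0) ∧
      (∀ i j, i ≠ j → p i * p j = 0) ∧ f + ∑ i, p i = star v * v ∧ v * f ∈ A ∧
      ∀ i, p i * (v * p i * star v) = 0 := by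
  have hA := h.masa
  let _ : CommRing A :=
    { (inferInstance : Ring A) with mul_comm := fun a b => Subtype.ext (hA.comm a.2 b.2) }
  obtain ⟨p, hsep, hmax⟩ := exists_maximal h hv
  have hsep' := hsep
  obtain ⟨hpA, hp, hps, hpv⟩ := hsep
  have hs := hv.src_proj
  have hsA : star v * v ∈ A := hv.src_mem
  have hTA : v * p * star v ∈ A := hv.conj_mem hpA
  have hT : IsStarProjection (v * p * star v) := hv.conj_proj hA hpA hp
  have hUA : star v * p * v ∈ A := hv.conj_mem' hpA
  have hU : IsStarProjection (star v * p * v) := by simpa using hv.adjoint.conj_proj hA hpA hp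
  have h1A := one_mem A
  have hs1A : star v * v * (1 - p) ∈ A := mul_mem hsA (sub_mem h1A hpA)
  have hs1 := hA.mul_proj hs hp.one_sub hsA (sub_mem h1A hpA)
  have hs2A : star v * v * (1 - p) * (1 - v * p * star v) ∈ A := mul_mem hs1A (sub_mem h1A hTA)
  have hs2 := hA.mul_proj hs1 hT.one_sub hs1A (sub_mem h1A hTA)
  obtain ⟨p2, hp2A, hp2, hp2e⟩ : ∃ x, x ∈ A ∧ IsStarProjection x ∧
      x = star v * v * (1 - p) * (v * p * star v) :=
    ⟨_, mul_mem hs1A hTA, hA.mul_proj hs1 hT hs1A hTA, rfl⟩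
  obtain ⟨p3, hp3A, hp3, hp3e⟩ : ∃ x, x ∈ A ∧ IsStarProjection x ∧
      x = star v * v * (1 - p) * (1 - v * p * star v) * (star v * p * v) :=
    ⟨_, mul_mem hs2A hUA, hA.mul_proj hs2 hU hs2A hUA, rfl⟩
  obtain ⟨f, hfA, hf, hfe⟩ : ∃ x, x ∈ A ∧ IsStarProjection x ∧
      x = star v * v * (1 - p) * (1 - v * p * star v) * (1 - star v * p * v) :=
    ⟨_, mul_mem hs2A (sub_mem h1A hUA), hA.mul_proj hs2 hU.one_sub hs2A (sub_mem h1A hUA), rfl⟩
  obtain ⟨esum, efs, efT, efU, efp, ef2, ef3, e12, e13, e23, e21, e31, e32⟩ :=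
    pieces_algebra (R := A) (s := ⟨_, hsA⟩) (p := ⟨_, hpA⟩) (T := ⟨_, hTA⟩) (U := ⟨_, hUA⟩)
      (Subtype.ext hs.isIdempotentElem) (Subtype.ext hp.isIdempotentElem)
      (Subtype.ext hT.isIdempotentElem) (Subtype.ext hU.isIdempotentElem) (Subtype.ext hps)
      (p2 := ⟨_, hp2A⟩) (p3 := ⟨_, hp3A⟩) (f := ⟨_, hfA⟩) (Subtype.ext hp2e)
      (Subtype.ext hp3e) (Subtype.ext hfe)
  replace esum := congrArg Subtype.val esum
  replace efs := congrArg Subtype.val efs
  replace efT := congrArg Subtype.val efT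
  replace efU := congrArg Subtype.val efU
  replace efp := congrArg Subtype.val efp
  replace ef2 := congrArg Subtype.val ef2
  replace ef3 := congrArg Subtype.val ef3
  replace e12 := congrArg Subtype.val e12
  replace e13 := congrArg Subtype.val e13
  replace e23 := congrArg Subtype.val e23
  replace e21 := congrArg Subtype.val e21
  replace e31 := congrArg Subtype.val e31
  replace e32 := congrArg Subtype.val e32
  simp only [MulMemClass.coe_mul, AddMemClass.coe_add, ZeroMemClass.coe_zero] at esum efs efT efU efp ef2 ef3 e12 e13 e23 e21 e31 e32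
  have hvfA : v * f ∈ A := by
    have hc : ∀ q ∈ A, IsStarProjection q → v * (q * f) = q * f * v := by
      intro q hqA hq
      have e := conj_eq_self h hv hsep' hmax (mul_mem hqA hfA) (hA.mul_proj hq hf hqA hfA)
        (by rw [mul_assoc, efs]) (by rw [mul_assoc, efp, mul_zero])
        (by rw [mul_assoc, efT, mul_zero]) (by rw [mul_assoc, efU, mul_zero])
      calc v * (q * f) = v * (q * f) * (star v * v) := by rw [mul_assoc, mul_assoc q, efs]
        _ = v * (q * f) * star v * v := by simp only [mul_assoc]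
        _ = _ := by rw [e]
    have hc1 : v * f = f * v := by simpa using hc 1 h1A (IsStarProjection.one _)
    refine hA.mem_of_commute (hA.comm_of_comm_proj (fun q hqA hq => ?_))
      (fun m hm => commute_of_mem_centralizer (mul_mem hv.mem (hA.mem_M hfA)) hm)
    rw [mul_assoc v f q, hA.comm hfA hqA, hc q hqA hq, hc1, mul_assoc q f v]
  have hpv2 : p2 * (v * p2 * star v) = 0 := by
    have e : v * p * star v * (v * p2 * star v) = 0 := by
      rw [hv.conj_mul hA hpA, e12, mul_zero, zero_mul]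
    conv_lhs => enter [1]; rw [hp2e]
    rw [mul_assoc (star v * v * (1 - p)), e, mul_zero]
  have hpv3 : p3 * (v * p3 * star v) = 0 := by
    have e : v * (star v * p * v) * star v = p * (v * star v) := by
      rw [show v * (star v * p * v) * star v = v * star v * p * (v * star v) by
          simp only [mul_assoc],
        hA.comm hv.rng_mem hpA, mul_assoc, hv.rng_proj.isIdempotentElem.eq]
    have hUp3 : star v * p * v * p3 = p3 := by
      rw [hA.comm hUA hp3A, hp3e, mul_assoc, hU.isIdempotentElem.eq]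
    rw [← hUp3, ← hv.conj_mul hA hUA, e, hUp3]
    simp only [mul_assoc]
    rw [← mul_assoc p3 p, e31, zero_mul]
  refine ⟨f, ![p, p2, p3], ⟨hfA, hf⟩, ?_, ?_, ?_, ?_, hvfA, ?_⟩
  · intro i
    fin_cases i
    exacts [⟨hpA, hp⟩, ⟨hp2A, hp2⟩, ⟨hp3A, hp3⟩]
  · intro i
    fin_cases i
    exacts [efp, ef2, ef3]
  · intro i j hij
    fin_cases i <;> fin_cases j <;> first | exact absurd rfl hij | assumption
  · rw [Fin.sum_univ_three]
    exact esum
  · intro i
    fin_cases i
    exacts [hpv, hpv2, hpv3]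

end Vale.Agent.P078.Finite
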