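import Vale.Agent.P078.Finite.Setting

/-!
# Projection onto the algebra generated by the normalisers
-/

namespace Vale.Agent.P078.Finite

open ComplexInnerProductSpace
open Filter Topology
open Vale.Agent.P078 Vale.Agent.P078.General

universe u

variable {H : Type u} [NormedAddCommGroup H] [InnerProductSpace ℂ H] [CompleteSpace H]
variable {M : VonNeumannAlgebra H} {A : StarSubalgebra ℂ (H →L[ℂ] H)} {Ω : H}

lemma IsNormaliser.self_mul {v : H →L[ℂ] H} (hv : IsNormaliser M A v) : v * (star v * v) = v := by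
  set p := star v * v with hp
  have e : p * (1 - p) = 0 := by
    rw [mul_sub, mul_one, hv.2.1.isIdempotentElem.eq, sub_self]
  have h1 : star (v * (1 - p)) * (v * (1 - p)) = 0 := by
    rw [star_mul, hv.2.1.one_sub.isSelfAdjoint.star_eq]
    calc (1 - p) * star v * (v * (1 - p)) = (1 - p) * (p * (1 - p)) := by
          simp only [hp, mul_assoc]
      _ = 0 := by rw [e, mul_zero]
  have h2 := (CStarRing.star_mul_self_eq_zero_iff _).1 h1
  rw [mul_sub, mul_one, sub_eq_zero] at h2
  exact h2.symm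

lemma IsNormaliser.proj' {v : H →L[ℂ] H} (hv : IsNormaliser M A v) :
    IsStarProjection (v * star v) :=
  ⟨by
    change v * star v * (v * star v) = v * star v
    rw [mul_assoc, ← mul_assoc (star v), ← mul_assoc, hv.self_mul],
    IsSelfAdjoint.mul_star_self v⟩

lemma IsNormaliser.star {v : H →L[ℂ] H} (hv : IsNormaliser M A v) :
    IsNormaliser M A (star v) := by
  refine ⟨star_mem hv.1, ?_, ?_, ?_, fun a ha => ?_⟩
  · rw [star_star]; exact hv.proj'
  · rw [star_star]; exact hv.2.2.2.1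
  · rw [star_star]; exact hv.2.2.1
  · rw [star_star]; exact ⟨(hv.2.2.2.2 a ha).2, (hv.2.2.2.2 a ha).1⟩

lemma IsNormaliser.mul (hA : IsMASAIn M A) {v w : H →L[ℂ] H} (hv : IsNormaliser M A v)
    (hw : IsNormaliser M A w) : IsNormaliser M A (v * w) := by
  have e : Star.star (v * w) * (v * w) = Star.star w * (Star.star v * v) * w := by
    rw [star_mul]; simp only [mul_assoc]
  have e' : (v * w) * Star.star (v * w) = v * (w * Star.star w) * Star.star v := by
    rw [star_mul]; simp only [mul_assoc]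
  refine ⟨mul_mem hv.1 hw.1, ⟨?_, IsSelfAdjoint.star_mul_self _⟩, ?_, ?_, fun a ha => ?_⟩
  · change Star.star (v * w) * (v * w) * (Star.star (v * w) * (v * w)) = _
    rw [e]
    set p := Star.star v * v with hp
    have hc : (w * Star.star w) * p = p * (w * Star.star w) := hA.comm hw.2.2.2.1 hv.2.2.1
    have hpp : p * p = p := hv.2.1.isIdempotentElem
    have hw3 : w * Star.star w * w = w := by rw [mul_assoc]; exact hw.self_mul
    calc Star.star w * p * w * (Star.star w * p * w)
        = Star.star w * p * ((w * Star.star w) * p) * w := by simp only [mul_assoc]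
      _ = Star.star w * (p * p) * (w * Star.star w * w) := by rw [hc]; simp only [mul_assoc]
      _ = Star.star w * p * w := by rw [hpp, hw3]
  · rw [e]; exact (hw.2.2.2.2 _ hv.2.2.1).2
  · rw [e']; exact (hv.2.2.2.2 _ hw.2.2.2.1).1
  · refine ⟨?_, ?_⟩
    · have := (hv.2.2.2.2 _ (hw.2.2.2.2 a ha).1).1
      rw [star_mul]
      simpa only [mul_assoc] using this
    · have := (hw.2.2.2.2 _ (hv.2.2.2.2 a ha).2).2
      rw [star_mul]
      simpa only [mul_assoc] using this

lemma isNormaliser_proj (hA : IsMASAIn M A) {p : H →L[ℂ] H} (hp : IsStarProjection p)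
    (hpA : p ∈ A) : IsNormaliser M A p := by
  refine ⟨hA.mem_M hpA, ?_, ?_, ?_, fun a ha => ?_⟩ <;>
    simp only [hp.isSelfAdjoint.star_eq, hp.isIdempotentElem.eq]
  · exact hp
  · exact hpA
  · exact hpA
  · exact ⟨mul_mem (mul_mem hpA ha) hpA, mul_mem (mul_mem hpA ha) hpA⟩

/-- Linear span of the normalisers. -/
def spanN (M : VonNeumannAlgebra H) (A : StarSubalgebra ℂ (H →L[ℂ] H)) :
    Submodule ℂ (H →L[ℂ] H) :=
  Submodule.span ℂ {v | IsNormaliser M A v}

lemma spanN_mem_M {s : H →L[ℂ] H} (hs : s ∈ spanN M A) : s ∈ M :=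
  (Submodule.span_le.2 (fun _ hv => hv.1) : spanN M A ≤ vnaSubmodule M) hs

lemma spanN_mul (hA : IsMASAIn M A) {s t : H →L[ℂ] H} (hs : s ∈ spanN M A) (ht : t ∈ spanN M A) :
    s * t ∈ spanN M A := by
  induction hs using Submodule.span_induction with
  | mem v hv =>
    induction ht using Submodule.span_induction with
    | mem w hw => exact Submodule.subset_span (IsNormaliser.mul hA hv hw)
    | zero => simp
    | add a b _ _ ha hb => rw [mul_add]; exact add_mem ha hb
    | smul c a _ ha => rw [mul_smul_comm]; exact Submodule.smul_mem _ c ha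
  | zero => simp
  | add a b _ _ ha hb => rw [add_mul]; exact add_mem ha hb
  | smul c a _ ha => rw [smul_mul_assoc]; exact Submodule.smul_mem _ c ha

lemma spanN_star {s : H →L[ℂ] H} (hs : s ∈ spanN M A) : Star.star s ∈ spanN M A := by
  induction hs using Submodule.span_induction with
  | mem v hv => exact Submodule.subset_span hv.star
  | zero => simp
  | add a b _ _ ha hb => rw [star_add]; exact add_mem ha hb
  | smul c a _ ha => rw [star_smul]; exact Submodule.smul_mem _ _ ha

lemma spanN_one (hA : IsMASAIn M A) : (1 : H →L[ℂ] H) ∈ spanN M A :=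
  Submodule.subset_span (isNormaliser_proj hA (IsStarProjection.one _) (one_mem A))

/-- The vectors `s Ω`, `s` in the span of the normalisers, closed up. -/
noncomputable def vecN (M : VonNeumannAlgebra H) (A : StarSubalgebra ℂ (H →L[ℂ] H)) (Ω : H) : Submodule ℂ H :=
  ((spanN M A).map (ContinuousLinearMap.apply ℂ H Ω).toLinearMap).topologicalClosure

/-- `n` lies in the von Neumann algebra generated by the normalisers (trace-norm description). -/
def InN (M : VonNeumannAlgebra H) (A : StarSubalgebra ℂ (H →L[ℂ] H)) (Ω : H)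
    (n : H →L[ℂ] H) : Prop :=
  n ∈ M ∧ n Ω ∈ vecN M A Ω

lemma apply_mem_vecN {s : H →L[ℂ] H} (hs : s ∈ spanN M A) : s Ω ∈ vecN M A Ω :=
  Submodule.le_topologicalClosure _ ⟨s, hs, rfl⟩

lemma InN.exists_approx {n : H →L[ℂ] H} (hn : InN M A Ω n) {η : ℝ} (hη : 0 < η) :
    ∃ s ∈ spanN M A, ‖(n - s) Ω‖ < η := by
  obtain ⟨_, ⟨s, hs, rfl⟩, hd⟩ := Metric.mem_closure_iff.1 hn.2 η hη
  exact ⟨s, hs, by rw [dist_eq_norm] at hd; exact hd⟩

lemma vecN_le_of {W : Submodule ℂ H} (hW : IsClosed (W : Set H))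
    (h : ∀ v, IsNormaliser M A v → v Ω ∈ W) : vecN M A Ω ≤ W := by
  refine Submodule.topologicalClosure_minimal _ ?_ hW
  rw [spanN, Submodule.map_span, Submodule.span_le]
  rintro _ ⟨v, hv, rfl⟩
  exact h v hv

lemma orthN_iff {w : H →L[ℂ] H} :
    OrthN M A Ω w ↔ ∀ ζ ∈ vecN M A Ω, ⟪ζ, w Ω⟫ = 0 := by
  refine ⟨fun hw ζ hζ => ?_,
    fun hw v hv => hw _ (apply_mem_vecN (Submodule.subset_span hv))⟩
  have := vecN_le_of (W := (ℂ ∙ w Ω)ᗮ) (Submodule.isClosed_orthogonal _)
    (fun v hv => by rw [Submodule.mem_orthogonal_singleton_iff_inner_left]; exact hw v hv) hζ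
  rwa [Submodule.mem_orthogonal_singleton_iff_inner_left] at this

variable (h : FinSetting M A Ω)
include h

lemma InN.star {n : H →L[ℂ] H} (hn : InN M A Ω n) : InN M A Ω (star n) := by
  refine ⟨star_mem hn.1, Metric.mem_closure_iff.2 (fun η hη => ?_)⟩
  obtain ⟨s, hs, hd⟩ := hn.exists_approx hη
  refine ⟨Star.star s Ω, ⟨Star.star s, spanN_star hs, rfl⟩, ?_⟩
  rw [dist_eq_norm, ← sub_apply, ← star_sub,
    norm_star_apply h (sub_mem hn.1 (spanN_mem_M hs))]
  exact hd

lemma InN.mul {m n : H →L[ℂ] H} (hm : InN M A Ω m) (hn : InN M A Ω n) : InN M A Ω (m * n) := by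
  refine ⟨mul_mem hm.1 hn.1, ?_⟩
  have key : ∀ s ∈ spanN M A, (m * s) Ω ∈ vecN M A Ω := fun s hs => by
    refine Metric.mem_closure_iff.2 (fun η hη => ?_)
    have hp : 0 < η / (‖s‖ + 1) := by positivity
    obtain ⟨t, ht, hd⟩ := hm.exists_approx hp
    refine ⟨(t * s) Ω, ⟨t * s, spanN_mul h.masa ht hs, rfl⟩, ?_⟩
    rw [dist_eq_norm, ← sub_apply, ← sub_mul]
    refine (norm_mul_right_le h (sub_mem hm.1 (spanN_mem_M ht)) (spanN_mem_M hs)).trans_lt ?_
    calc ‖s‖ * ‖(m - t) Ω‖ ≤ (‖s‖ + 1) * ‖(m - t) Ω‖ :=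
          mul_le_mul_of_nonneg_right (by linarith) (norm_nonneg _)
      _ < (‖s‖ + 1) * (η / (‖s‖ + 1)) := mul_lt_mul_of_pos_left hd (by positivity)
      _ = η := by field_simp
  have hcl : IsClosed ((vecN M A Ω).comap (m : H →ₗ[ℂ] H) : Set H) :=
    (Submodule.isClosed_topologicalClosure _).preimage m.continuous
  exact vecN_le_of hcl (fun v hv => key v (Submodule.subset_span hv)) hn.2

lemma inN_of_mem {a : H →L[ℂ] H} (ha : a ∈ A) : InN M A Ω a := by
  have hproj : ∀ p ∈ A, IsStarProjection p → p Ω ∈ vecN M A Ω := fun p hpA hp =>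
    apply_mem_vecN (Submodule.subset_span (isNormaliser_proj h.masa hp hpA))
  have step : ∀ (n : ℕ) (b : H →L[ℂ] H) (R : ℝ), b ∈ A → IsSelfAdjoint b → ‖b‖ ≤ R →
      ∃ ζ ∈ vecN M A Ω, ‖b Ω - ζ‖ ≤ R * ‖Ω‖ / 2 ^ n := by
    intro n
    induction n with
    | zero =>
      intro b R _ _ hR
      refine ⟨0, zero_mem _, ?_⟩
      rw [sub_zero, pow_zero, div_one]
      exact norm_sum_apply_le hR Ω
    | succ n ih =>
      intro b R hbA hb hR
      obtain ⟨b1, e, heA, he, hb1A, hb1s, hnb, hb1⟩ := h.masa.halving b R hbA hb hR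
      obtain ⟨ζ, hζ, hd⟩ := ih b1 (R / 2) hb1A hb1s hnb
      refine ⟨ζ + ((R / 2 : ℝ) : ℂ) • (e Ω - (1 - e) Ω), add_mem hζ (Submodule.smul_mem _ _
        (sub_mem (hproj e heA he) (hproj _ (sub_mem (one_mem A) heA) he.one_sub))), ?_⟩
      refine (le_of_eq ?_).trans (hd.trans (le_of_eq (by rw [pow_succ]; ring)))
      congr 1
      rw [hb1]
      simp only [sub_apply, Complex.coe_smul, _root_.sub_apply, ContinuousLinearMap.coe_smul', Pi.smul_apply, ← Complex.coe_smul]
      abel
  have hsa : ∀ b ∈ A, IsSelfAdjoint b → b Ω ∈ vecN M A Ω := by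
    intro b hbA hb
    refine (Submodule.isClosed_topologicalClosure _).closure_subset
      (Metric.mem_closure_iff.2 (fun η hη => ?_))
    have ht : Tendsto (fun n : ℕ => ‖b‖ * ‖Ω‖ / 2 ^ n) atTop (𝓝 0) :=
      tendsto_const_nhds.div_atTop (tendsto_pow_atTop_atTop_of_one_lt one_lt_two)
    obtain ⟨n, hn⟩ := (ht.eventually (gt_mem_nhds hη)).exists
    obtain ⟨ζ, hζ, hd⟩ := step n b ‖b‖ hbA hb le_rfl
    exact ⟨ζ, hζ, by rw [dist_eq_norm]; linarith⟩
  refine ⟨h.masa.mem_M ha, ?_⟩
  have e : a = (1 / 2 : ℂ) • (a + Star.star a)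
      - (Complex.I / 2) • (Complex.I • (a - Star.star a)) := by
    rw [smul_smul, div_mul_eq_mul_div, Complex.I_mul_I]; module
  rw [e]
  refine sub_mem (Submodule.smul_mem _ _ (hsa _ (add_mem ha (star_mem ha))
    (IsSelfAdjoint.add_star_self a))) (Submodule.smul_mem _ _ (hsa _ ?_ ?_))
  · exact A.toSubalgebra.smul_mem (sub_mem ha (star_mem ha) : a - Star.star a ∈ A) _
  · simp [IsSelfAdjoint, star_smul, Complex.conj_I, sub_eq_add_neg, add_comm]

lemma orthN_mul_left {n w : H →L[ℂ] H} (hn : InN M A Ω n) (hw : OrthN M A Ω w) :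
    OrthN M A Ω (n * w) := by
  intro v hv
  have h1 : InN M A Ω (Star.star n * v) :=
    InN.mul h (InN.star h hn) ⟨hv.1, apply_mem_vecN (Submodule.subset_span hv)⟩
  have h2 := orthN_iff.1 hw _ h1.2
  rw [inner_eq h] at h2 ⊢
  rw [star_mul, star_star] at h2
  simpa only [mul_assoc] using h2

lemma orthN_star {w : H →L[ℂ] H} (hwM : w ∈ M) (hw : OrthN M A Ω w) :
    OrthN M A Ω (Star.star w) := by
  intro v hv
  rw [inner_star h hv.1 (star_mem hwM), star_star, ← inner_conj_symm, hw _ hv.star, map_zero]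

lemma orthN_mul_right {n w : H →L[ℂ] H} (hn : InN M A Ω n) (hwM : w ∈ M) (hw : OrthN M A Ω w) :
    OrthN M A Ω (w * n) := by
  have := orthN_star h (mul_mem (star_mem hn.1) (star_mem hwM))
    (orthN_mul_left h (InN.star h hn) (orthN_star h hwM hw))
  simpa [star_mul] using this

omit h in
/-- Truncation to `[-R, R]`. -/
def clamp (R t : ℝ) : ℝ := max (-R) (min R t)

lemma cfc_apply_mem_vecN {s : H →L[ℂ] H} (hs : s ∈ spanN M A) (hsa : IsSelfAdjoint s)
    (f : ℝ → ℝ) (hf : Continuous f) : cfc f s Ω ∈ vecN M A Ω := by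
  have hpow : ∀ k : ℕ, s ^ k ∈ spanN M A := fun k => by
    induction k with
    | zero => simpa using spanN_one h.masa
    | succ k ih => rw [pow_succ]; exact spanN_mul h.masa ih hs
  refine (Submodule.isClosed_topologicalClosure _).closure_subset
    (Metric.mem_closure_iff.2 (fun η hη => ?_))
  have hη' : 0 < η / (‖Ω‖ + 1) := by positivity
  obtain ⟨P, hP⟩ := exists_polynomial_near_of_continuousOn (-‖s‖) ‖s‖ f hf.continuousOn _ hη'
  refine ⟨(Polynomial.aeval s P) Ω, ?_, ?_⟩
  · refine apply_mem_vecN ?_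
    rw [Polynomial.aeval_eq_sum_range]
    refine Submodule.sum_mem _ (fun k _ => ?_)
    rw [← Complex.coe_smul]
    exact Submodule.smul_mem _ _ (hpow k)
  rw [dist_eq_norm, ← sub_apply, ← cfc_polynomial P s hsa,
    ← cfc_sub (a := s) f P.eval hf.continuousOn P.continuous.continuousOn]
  have hn : ‖cfc (fun x => f x - P.eval x) s‖ ≤ η / (‖Ω‖ + 1) := by
    refine norm_cfc_le hη'.le (fun t ht => ?_)
    rcases subsingleton_or_nontrivial (H →L[ℂ] H) with hs' | hs'
    · simp [spectrum.of_subsingleton] at ht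
    have ht' : |t| ≤ ‖s‖ := by
      have := spectrum.norm_le_norm_of_mem ht
      rwa [Real.norm_eq_abs] at this
    rw [Real.norm_eq_abs, abs_sub_comm]
    exact (hP t (abs_le.1 ht')).le
  calc ‖cfc (fun x => f x - P.eval x) s Ω‖ ≤ η / (‖Ω‖ + 1) * ‖Ω‖ := norm_sum_apply_le hn Ω
    _ < η := by
        rw [div_mul_eq_mul_div, div_lt_iff₀ (by positivity)]
        nlinarith

lemma exists_decomp_sa {y : H →L[ℂ] H} (hy : y ∈ M) (hys : IsSelfAdjoint y) :
    ∃ n, InN M A Ω n ∧ IsSelfAdjoint n ∧ ‖n‖ ≤ ‖y‖ ∧ OrthN M A Ω (y - n) := by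
  set R := ‖y‖ with hR
  have : CompleteSpace (vecN M A Ω) := Submodule.topologicalClosure.completeSpace _
  set ζ := (vecN M A Ω).starProjection (y Ω) with hζ
  have hζm : ζ ∈ vecN M A Ω := Submodule.starProjection_apply_mem _ _
  have hperp : ∀ k ∈ vecN M A Ω, ⟪k, y Ω - ζ⟫ = 0 := fun k hk =>
    (Submodule.mem_orthogonal _ _).1 (Submodule.sub_starProjection_mem_orthogonal _) k hk
  have hpyth : ∀ k ∈ vecN M A Ω, ‖y Ω - k‖ ^ 2 = ‖y Ω - ζ‖ ^ 2 + ‖ζ - k‖ ^ 2 := fun k hk => by
    rw [show y Ω - k = (y Ω - ζ) + (ζ - k) by abel, norm_add_sq (𝕜 := ℂ), inner_re_symm,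
      hperp _ (sub_mem hζm hk)]
    simp
  have key : ∀ k : ℕ, ∃ b : H →L[ℂ] H, b ∈ M ∧ IsSelfAdjoint b ∧ ‖b‖ ≤ R ∧
      b Ω ∈ vecN M A Ω ∧ ‖b Ω - ζ‖ ≤ 1 / ((k : ℝ) + 1) := by
    intro k
    obtain ⟨_, ⟨s₀, hs₀, rfl⟩, hd⟩ := Metric.mem_closure_iff.1 hζm (1 / ((k : ℝ) + 1))
      (by positivity)
    rw [dist_eq_norm] at hd
    change ‖ζ - s₀ Ω‖ < _ at hd
    set s := (1 / 2 : ℂ) • (s₀ + Star.star s₀) with hs
    have hsm : s ∈ spanN M A := Submodule.smul_mem _ _ (add_mem hs₀ (spanN_star hs₀))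
    have hss : IsSelfAdjoint s := by
      simp [IsSelfAdjoint, s, star_smul, add_comm, map_ofNat]
    have h3 : ‖(y - Star.star s₀) Ω‖ = ‖(y - s₀) Ω‖ := by
      rw [← norm_star_apply h (sub_mem hy (spanN_mem_M hs₀)), star_sub, hys.star_eq]
    have h4 : ‖y Ω - s Ω‖ ≤ ‖y Ω - s₀ Ω‖ := by
      have e : y Ω - s Ω = (1 / 2 : ℂ) • ((y - s₀) Ω + (y - Star.star s₀) Ω) := by
        simp only [s, smul_apply, add_apply, sub_apply]; module
      rw [e, norm_smul, ← sub_apply]
      refine le_trans (mul_le_mul_of_nonneg_left (norm_add_le _ _) (norm_nonneg _)) ?_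
      rw [h3]; norm_num; linarith
    have h5 : ‖ζ - s Ω‖ ≤ ‖ζ - s₀ Ω‖ := by
      refine (sq_le_sq₀ (norm_nonneg _) (norm_nonneg _)).1 ?_
      have e1 := hpyth _ (apply_mem_vecN (Ω := Ω) hsm)
      have e2 := hpyth _ (apply_mem_vecN (Ω := Ω) hs₀)
      have e3 := pow_le_pow_left₀ (norm_nonneg _) h4 2
      linarith
    have hsM : s ∈ M := spanN_mem_M hsm
    set f := cfc (clamp R) s with hf
    have hclamp : Continuous (clamp R) := continuous_const.max (continuous_const.min continuous_id)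
    have hfV : f Ω ∈ vecN M A Ω := cfc_apply_mem_vecN h hsm hss _ hclamp
    have hfM : f ∈ M := mem_vna_of_commute (fun m hm =>
      ((Commute.cfc_real (commute_of_mem_centralizer hsM hm).symm _).eq).symm)
    have hfs : IsSelfAdjoint f := cfc_predicate _ _
    refine ⟨f, hfM, hfs, ?_, hfV, ?_⟩
    · refine norm_cfc_le (norm_nonneg _) (fun t _ => ?_)
      rw [Real.norm_eq_abs, abs_le]
      exact ⟨le_max_left _ _, max_le (by linarith [norm_nonneg y]) (min_le_left _ _)⟩
    refine le_trans ?_ (h5.trans hd.le)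
    rw [norm_sub_rev]
    refine (sq_le_sq₀ (norm_nonneg _) (norm_nonneg _)).1 ?_
    -- the truncation is the nearest point of the ball
    have hgain : (⟪ζ - f Ω, (s - f) Ω⟫).re ≤ 0 := by
      have hside : ∀ (σ : ℝ), σ = 1 ∨ σ = -1 →
          (⟪(y - f) Ω, cfc (fun t => σ * max (σ * t - R) 0) s Ω⟫).re ≤ 0 := by
        intro σ hσ
        set hh := cfc (fun t => Real.sqrt (max (σ * t - R) 0)) s with hhh
        have hhs : IsSelfAdjoint hh := cfc_predicate _ _
        have hhM : hh ∈ M := mem_vna_of_commute (fun m hm =>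
          ((Commute.cfc_real (commute_of_mem_centralizer hsM hm).symm _).eq).symm)
        have e1 : cfc (fun t => σ * max (σ * t - R) 0) s = (σ : ℂ) • (hh * hh) := by
          rw [cfc_const_mul σ (fun t => max (σ * t - R) 0) s, Complex.coe_smul, hhh,
            ← cfc_mul (fun t => Real.sqrt (max (σ * t - R) 0)) _ s]
          congr 1
          exact cfc_congr (fun t _ => (Real.mul_self_sqrt (le_max_right _ _)).symm)
        have e2 : f * hh = ((σ * R : ℝ) : ℂ) • hh := by
          rw [hf, hhh, ← cfc_mul (clamp R) _ s, Complex.coe_smul, ← cfc_const_mul (σ * R) _ s]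
          refine cfc_congr (fun t _ => ?_)
          rcases le_total (σ * t) R with h' | h'
          · simp [max_eq_right (show σ * t - R ≤ 0 by linarith)]
          · congr 1
            have hR0 : 0 ≤ R := norm_nonneg y
            rcases hσ with rfl | rfl
            · simp only [clamp, one_mul] at h' ⊢
              rw [min_eq_left h', max_eq_right (by linarith)]
            · simp only [clamp] at h' ⊢
              rw [min_eq_right (by linarith), max_eq_left (by linarith)]
              ring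
        have hyf : y - f ∈ M := sub_mem hy hfM
        have e3 : ⟪(y - f) Ω, (hh * hh) Ω⟫ = ⟪(y - f) (hh Ω), hh Ω⟫ := by
          rw [inner_eq h, (hys.sub hfs).star_eq, ← mul_assoc,
            h.tracial _ (mul_mem hyf hhM) _ hhM]
          change ⟪Ω, hh ((y - f) (hh Ω))⟫ = _
          rw [← sa_inner hhs, ← sa_inner (hys.sub hfs)]
        have e5 : f (hh Ω) = ((σ * R : ℝ) : ℂ) • hh Ω := DFunLike.congr_fun e2 Ω
        rw [e1, smul_apply, inner_smul_right, Complex.re_ofReal_mul, e3, sub_apply, inner_sub_left,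
          e5, inner_smul_left, Complex.conj_ofReal, Complex.sub_re, Complex.re_ofReal_mul]
        have e6 : (⟪hh Ω, hh Ω⟫).re = ‖hh Ω‖ ^ 2 := by
          rw [@norm_sq_eq_re_inner ℂ]; rfl
        have e7 : |(⟪y (hh Ω), hh Ω⟫).re| ≤ R * ‖hh Ω‖ ^ 2 :=
          (Complex.abs_re_le_norm _).trans ((norm_inner_le_norm _ _).trans (by
            rw [sq, ← mul_assoc]
            exact mul_le_mul_of_nonneg_right (y.le_opNorm _) (norm_nonneg _)))
        rw [e6]
        obtain ⟨e8, e9⟩ := abs_le.1 e7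
        rcases hσ with rfl | rfl <;> nlinarith
      have e : s - f = cfc (fun t => (1 : ℝ) * max (1 * t - R) 0) s
          + cfc (fun t => (-1 : ℝ) * max ((-1) * t - R) 0) s := by
        rw [hf, ← cfc_add (a := s) (fun t => (1 : ℝ) * max (1 * t - R) 0) _]
        conv_lhs => arg 1; rw [← cfc_id ℝ s hss]
        rw [← cfc_sub (a := s) id (clamp R)]
        refine cfc_congr (fun t _ => ?_)
        have hR0 : 0 ≤ R := norm_nonneg y
        simp only [clamp, id, one_mul, neg_mul]
        rcases le_total t R with h1 | h1 <;> rcases le_total (-R) t with h2 | h2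
        · rw [min_eq_right h1, max_eq_right h2, max_eq_right (by linarith),
            max_eq_right (by linarith)]
          ring
        · rw [min_eq_right h1, max_eq_left h2, max_eq_right (by linarith),
            max_eq_left (by linarith)]
          ring
        · rw [min_eq_left h1, max_eq_right (by linarith), max_eq_left (by linarith),
            max_eq_right (by linarith)]
          ring
        · rw [min_eq_left h1, max_eq_right (by linarith), max_eq_left (by linarith),
            max_eq_right (by linarith)]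
          ring
      have hgV : (s - f) Ω ∈ vecN M A Ω := sub_mem (apply_mem_vecN hsm) hfV
      have e0 : ⟪ζ - f Ω, (s - f) Ω⟫ = ⟪(y - f) Ω, (s - f) Ω⟫ := by
        rw [sub_apply y f Ω, show y Ω - f Ω = (y Ω - ζ) + (ζ - f Ω) by abel, inner_add_left,
          ← inner_conj_symm (y Ω - ζ), hperp _ hgV, map_zero, zero_add]
      rw [e0, e, add_apply, inner_add_right, Complex.add_re]
      linarith [hside 1 (Or.inl rfl), hside (-1) (Or.inr rfl)]
    have e : ζ - s Ω = (ζ - f Ω) - (s - f) Ω := by simp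
    rw [e]
    have h6 := norm_sub_sq (𝕜 := ℂ) (ζ - f Ω) ((s - f) Ω)
    have : RCLike.re ⟪ζ - f Ω, (s - f) Ω⟫ ≤ 0 := hgain
    nlinarith [sq_nonneg ‖(s - f) Ω‖]
  choose b hbM hbs hbR hbV hbd using key
  have hlim : Tendsto (fun k => b k Ω) atTop (𝓝 ζ) :=
    tendsto_iff_norm_sub_tendsto_zero.2
      (squeeze_zero (fun k => norm_nonneg _) hbd tendsto_one_div_add_atTop_nhds_zero_nat)
  obtain ⟨z, hzM, hzR, hz, hzs⟩ := exists_limit h hbM hbR hlim.cauchySeq
  have hzζ : z Ω = ζ := tendsto_nhds_unique hz hlim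
  refine ⟨z, ⟨hzM, hzζ ▸ hζm⟩, hzs hbs, hzR, orthN_iff.2 (fun k hk => ?_)⟩
  rw [sub_apply, hzζ]
  exact hperp k hk

/-- Every element splits into a part generated by normalisers and a part orthogonal to them. -/
theorem exists_decomp {y : H →L[ℂ] H} (hy : y ∈ M) :
    ∃ n, InN M A Ω n ∧ OrthN M A Ω (y - n) := by
  obtain ⟨n1, h1, -, -, o1⟩ := exists_decomp_sa h
    (smul_mem_vna (1 / 2 : ℂ) (add_mem hy (star_mem hy)))
    (by simp [IsSelfAdjoint, star_smul, add_comm, map_ofNat])
  obtain ⟨n2, h2, -, -, o2⟩ := exists_decomp_sa h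
    (smul_mem_vna (Complex.I / 2) (sub_mem (star_mem hy) hy))
    (by
      rw [IsSelfAdjoint, star_smul, star_sub, star_star, ← neg_sub y, smul_neg]
      simp [Complex.conj_I, neg_div])
  refine ⟨n1 + Complex.I • n2,
    ⟨add_mem h1.1 (smul_mem_vna _ h2.1), add_mem h1.2 (Submodule.smul_mem _ _ h2.2)⟩,
    orthN_iff.2 (fun k hk => ?_)⟩
  have e : y - (n1 + Complex.I • n2) = ((1 / 2 : ℂ) • (y + Star.star y) - n1)
      + Complex.I • ((Complex.I / 2) • (Star.star y - y) - n2) := by
    rw [smul_sub, smul_smul, mul_div_assoc', Complex.I_mul_I]; module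
  rw [e, add_apply, inner_add_right, smul_apply, inner_smul_right, orthN_iff.1 o1 k hk,
    orthN_iff.1 o2 k hk, mul_zero, add_zero]

end Vale.Agent.P078.Finite
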