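import Vale.Agent.P078.General.Corner

/-!
# A MASA in a finite von Neumann algebra given by a trace vector
-/

namespace Vale.Agent.P078.Finite

open ComplexInnerProductSpace
open Filter Topology
open Vale.Agent.P078 Vale.Agent.P078.General

universe u

variable {H : Type u} [NormedAddCommGroup H] [InnerProductSpace ℂ H] [CompleteSpace H]

/-- `A` is a MASA of `M` and the vector state of `Ω` is a faithful trace on `M`. -/
structure FinSetting (M : VonNeumannAlgebra H) (A : StarSubalgebra ℂ (H →L[ℂ] H)) (Ω : H) :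
    Prop where
  masa : IsMASAIn M A
  tracial : ∀ x ∈ M, ∀ y ∈ M, ⟪Ω, (x * y) Ω⟫ = ⟪Ω, (y * x) Ω⟫
  faithful : ∀ x ∈ M, x Ω = 0 → x = 0

/-- A partial isometry of `M` normalising `A`. -/
def IsNormaliser (M : VonNeumannAlgebra H) (A : StarSubalgebra ℂ (H →L[ℂ] H))
    (v : H →L[ℂ] H) : Prop :=
  v ∈ M ∧ IsStarProjection (star v * v) ∧ star v * v ∈ A ∧ v * star v ∈ A ∧
    ∀ a ∈ A, v * a * star v ∈ A ∧ star v * a * v ∈ A

/-- `w` is orthogonal in the trace norm to every normaliser of `A`. -/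
def OrthN (M : VonNeumannAlgebra H) (A : StarSubalgebra ℂ (H →L[ℂ] H)) (Ω : H)
    (w : H →L[ℂ] H) : Prop :=
  ∀ v, IsNormaliser M A v → ⟪v Ω, w Ω⟫ = 0

/-- `x` is, up to a small trace norm, paved to norm `c` by `r` pieces. -/
def L2Paved (M : VonNeumannAlgebra H) (A : StarSubalgebra ℂ (H →L[ℂ] H)) (Ω : H) (c : ℝ) (r : ℕ)
    (x : H →L[ℂ] H) : Prop :=
  ∀ η : ℝ, 0 < η → ∃ p : Fin r → (H →L[ℂ] H), (∀ i, p i ∈ A ∧ IsStarProjection (p i)) ∧
    (∀ i j, i ≠ j → p i * p j = 0) ∧ ∑ i, p i = 1 ∧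
      ∃ z ∈ M, IsSelfAdjoint z ∧ ‖z‖ ≤ c ∧ ‖((∑ i, p i * x * p i) - z) Ω‖ ≤ η

variable {M : VonNeumannAlgebra H} {A : StarSubalgebra ℂ (H →L[ℂ] H)} {Ω : H}
variable (h : FinSetting M A Ω)
include h

lemma inner_eq (x y : H →L[ℂ] H) : ⟪x Ω, y Ω⟫ = ⟪Ω, (star x * y) Ω⟫ := by
  have _ := h
  change _ = ⟪Ω, star x (y Ω)⟫
  rw [ContinuousLinearMap.star_eq_adjoint, ContinuousLinearMap.adjoint_inner_right]

lemma inner_star {x y : H →L[ℂ] H} (hx : x ∈ M) (hy : y ∈ M) :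
    ⟪x Ω, y Ω⟫ = ⟪star y Ω, star x Ω⟫ := by
  rw [inner_eq h, inner_eq h, star_star, h.tracial _ (star_mem hx) _ hy]

lemma norm_star_apply {x : H →L[ℂ] H} (hx : x ∈ M) : ‖star x Ω‖ = ‖x Ω‖ := by
  refine (sq_eq_sq₀ (norm_nonneg _) (norm_nonneg _)).1 ?_
  rw [@norm_sq_eq_re_inner ℂ, @norm_sq_eq_re_inner ℂ, inner_star h hx hx]

lemma norm_mul_left_le (x y : H →L[ℂ] H) : ‖(x * y) Ω‖ ≤ ‖x‖ * ‖y Ω‖ := by
  have _ := h
  exact x.le_opNorm _

lemma norm_mul_right_le {x y : H →L[ℂ] H} (hx : x ∈ M) (hy : y ∈ M) :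
    ‖(x * y) Ω‖ ≤ ‖y‖ * ‖x Ω‖ := by
  rw [← norm_star_apply h (mul_mem hx hy), star_mul, ← norm_star_apply h hx, ← norm_star y]
  exact norm_mul_left_le h _ _

/-- Vectors `m Ω`, `m` in the commutant, span a dense subspace. -/
lemma commutant_dense :
    (Submodule.span ℂ {z | ∃ m ∈ Set.centralizer (M : Set (H →L[ℂ] H)), z = m Ω}).topologicalClosure
      = ⊤ := by
  set W := (Submodule.span ℂ
    {z | ∃ m ∈ Set.centralizer (M : Set (H →L[ℂ] H)), z = m Ω}).topologicalClosure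
  have : CompleteSpace W := Submodule.topologicalClosure.completeSpace _
  have hinv : ∀ m ∈ Set.centralizer (M : Set (H →L[ℂ] H)), ∀ k ∈ W, m k ∈ W := by
    intro m hm
    have hs : Submodule.span ℂ {z | ∃ m ∈ Set.centralizer (M : Set (H →L[ℂ] H)), z = m Ω}
        ≤ Submodule.comap (m : H →ₗ[ℂ] H) W := by
      rw [Submodule.span_le]
      rintro _ ⟨m', hm', rfl⟩
      exact Submodule.le_topologicalClosure _
        (Submodule.subset_span ⟨m * m', Set.mul_mem_centralizer hm hm', rfl⟩)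
    intro k hk
    exact Submodule.topologicalClosure_minimal (t := Submodule.comap (m : H →ₗ[ℂ] H) W) _ hs
      ((Submodule.isClosed_topologicalClosure _).preimage m.continuous) hk
  have hgM : W.starProjection ∈ M := mem_vna_of_commute (fun m hm =>
    starProjection_commute W m (hinv m hm) (hinv _ (mem_commutant_star hm)))
  have hgΩ : W.starProjection Ω = Ω := Submodule.starProjection_eq_self_iff.2
    (Submodule.le_topologicalClosure _ (Submodule.subset_span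
      ⟨1, Set.one_mem_centralizer, rfl⟩))
  have h1 := h.faithful _ (sub_mem (one_mem M) hgM) (by simp [hgΩ])
  refine eq_top_iff.2 (fun u _ => ?_)
  have h2 : u - W.starProjection u = 0 := DFunLike.congr_fun h1 u
  rw [sub_eq_zero.1 h2]
  exact W.starProjection_apply_mem u

/-- A bounded sequence which is Cauchy in the trace norm has a limit in `M`. -/
lemma exists_limit {b : ℕ → (H →L[ℂ] H)} (hb : ∀ n, b n ∈ M) {R : ℝ} (hR : ∀ n, ‖b n‖ ≤ R)
    (hC : CauchySeq (fun n => b n Ω)) :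
    ∃ z ∈ M, ‖z‖ ≤ R ∧ Tendsto (fun n => b n Ω) atTop (𝓝 (z Ω)) ∧
      ((∀ n, IsSelfAdjoint (b n)) → IsSelfAdjoint z) := by
  have _ := h
  obtain ⟨z, hz⟩ := exists_weak_limit b hR
  obtain ⟨L, hL⟩ := cauchySeq_tendsto_of_complete hC
  have hR0 : 0 ≤ R := (norm_nonneg _).trans (hR 0)
  refine ⟨z, weak_limit_mem hb hz, ?_, ?_, fun hs => weak_limit_sa hs hz⟩
  · refine ContinuousLinearMap.opNorm_le_of_re_inner_le hR0 (fun v w hv hw => ?_)
    refine (Complex.re_le_norm _).trans ?_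
    refine le_of_tendsto' (hz v w).norm (fun n => ?_)
    refine (norm_inner_le_norm _ _).trans ?_
    rw [hw, mul_one]
    simpa [hv] using norm_sum_apply_le (hR n) v
  · have : z Ω = L := by
      refine ext_inner_right ℂ (fun w => tendsto_nhds_unique (hz Ω w) ?_)
      exact ((hL.mono_left Nat.hyperfilter_le_atTop).inner tendsto_const_nhds)
    rw [this]
    exact hL

lemma inner_pinch_apply (P : Part A) (x : H →L[ℂ] H) {y : H →L[ℂ] H} (hy : y ∈ M) (hx : x ∈ M) :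
    ⟪P.pinch x Ω, y Ω⟫ = ⟪x Ω, P.pinch y Ω⟫ := by
  simp only [Part.pinch, _root_.sum_apply, sum_inner, inner_sum]
  refine Finset.sum_congr rfl (fun i _ => ?_)
  have hi : P.e i ∈ M := h.masa.mem_M (P.mem i)
  rw [inner_eq h, inner_eq h]
  simp only [star_mul, (P.proj i).isSelfAdjoint.star_eq, mul_assoc]
  rw [h.tracial _ hi _ (mul_mem (star_mem hx) (mul_mem hi hy))]
  simp only [mul_assoc]

lemma pinch_pinch {P Q : Part A} (hPQ : P ≤ Q) (x : H →L[ℂ] H) :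
    Q.pinch (P.pinch x) = Q.pinch x := by
  simp only [Part.pinch, Finset.mul_sum, Finset.sum_mul]
  refine Finset.sum_congr rfl (fun j _ => ?_)
  obtain ⟨i, hi⟩ := hPQ j
  have hi' : Q.e j * P.e i = Q.e j := (h.masa.comm (Q.mem j) (P.mem i)).trans hi
  rw [Finset.sum_eq_single i]
  · simp only [← mul_assoc, hi']
    simp only [mul_assoc, hi]
  · intro k _ hk
    have : Q.e j * P.e k = 0 := by
      rw [← hi', mul_assoc, P.orth i k hk.symm, mul_zero]
    simp only [← mul_assoc, this, zero_mul]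
  · simp

lemma pinch_idem (P : Part A) (x : H →L[ℂ] H) : P.pinch (P.pinch x) = P.pinch x :=
  pinch_pinch h le_rfl x

lemma norm_sq_pinch_sub {P Q : Part A} (hPQ : P ≤ Q) {x : H →L[ℂ] H} (hx : x ∈ M) :
    ‖(P.pinch x - Q.pinch x) Ω‖ ^ 2 = ‖P.pinch x Ω‖ ^ 2 - ‖Q.pinch x Ω‖ ^ 2 := by
  have h1 : ⟪Q.pinch x Ω, P.pinch x Ω⟫ = ⟪Q.pinch x Ω, Q.pinch x Ω⟫ := by
    have hPM := pinch_mem h.masa hx P
    have hQM := pinch_mem h.masa hx Q
    calc ⟪Q.pinch x Ω, P.pinch x Ω⟫ = ⟪Q.pinch (Q.pinch x) Ω, P.pinch x Ω⟫ := by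
          rw [pinch_idem h]
      _ = ⟪Q.pinch x Ω, Q.pinch (P.pinch x) Ω⟫ := inner_pinch_apply h Q _ hPM hQM
      _ = _ := by rw [pinch_pinch h hPQ]
  rw [sub_apply, norm_sub_sq (𝕜 := ℂ), inner_re_symm, h1]
  rw [← @norm_sq_eq_re_inner ℂ]
  ring

lemma norm_pinch_apply_antitone {P Q : Part A} (hPQ : P ≤ Q) {x : H →L[ℂ] H} (hx : x ∈ M) :
    ‖Q.pinch x Ω‖ ≤ ‖P.pinch x Ω‖ := by
  refine (sq_le_sq₀ (norm_nonneg _) (norm_nonneg _)).1 ?_
  nlinarith [norm_sq_pinch_sub h hPQ hx, sq_nonneg ‖(P.pinch x - Q.pinch x) Ω‖]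

/-- Pinchings converge in the trace norm to the conditional expectation `plim`. -/
lemma tendsto_pinch {x : H →L[ℂ] H} (hx : x ∈ M) {η : ℝ} (hη : 0 < η) :
    ∃ P0 : Part A, ∀ P, P0 ≤ P → ‖(P.pinch x - plim h.masa x) Ω‖ ≤ η := by
  set S : Set ℝ := Set.range (fun P : Part A => ‖P.pinch x Ω‖ ^ 2) with hS
  have hbd : BddBelow S := ⟨0, by rintro _ ⟨P, rfl⟩; positivity⟩
  obtain ⟨_, ⟨P0, rfl⟩, hP0⟩ := exists_lt_of_csInf_lt (Set.range_nonempty _)
    (show sInf S < sInf S + η ^ 2 by nlinarith)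
  refine ⟨P0, fun P hP => ?_⟩
  have hev : ∀ᶠ Q in (uf h.masa : Filter (Part A)), ‖(P.pinch x - Q.pinch x) Ω‖ ≤ η := by
    filter_upwards [eventually_finer h.masa P] with Q hQ
    refine (sq_le_sq₀ (norm_nonneg _) hη.le).1 ?_
    rw [norm_sq_pinch_sub h hQ hx]
    have h1 := norm_pinch_apply_antitone h hP hx
    have h2 := csInf_le hbd ⟨Q, rfl⟩
    have h3 := pow_le_pow_left₀ (norm_nonneg _) h1 2
    linarith
  refine norm_le_of_inner_le hη.le (fun w => ?_)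
  refine le_of_tendsto (f := fun Q : Part A => ‖⟪(P.pinch x - Q.pinch x) Ω, w⟫‖)
    (x := (uf h.masa : Filter (Part A))) ?_ ?_
  · simp only [sub_apply, inner_sub_left]
    exact (tendsto_const_nhds.sub (tendsto_plim h.masa x Ω w)).norm
  · filter_upwards [hev] with Q hQ
    exact (norm_inner_le_norm _ _).trans (mul_le_mul_of_nonneg_right hQ (norm_nonneg _))
where
  norm_le_of_inner_le {v : H} {η : ℝ} (hη : 0 ≤ η) (hv : ∀ w, ‖⟪v, w⟫‖ ≤ η * ‖w‖) : ‖v‖ ≤ η := by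
    rcases eq_or_ne v 0 with rfl | h0
    · simpa using hη
    have h1 := hv v
    rw [inner_self_eq_norm_sq_to_K] at h1
    simp only [Complex.coe_algebraMap, norm_pow, Complex.norm_real, norm_norm] at h1
    exact le_of_mul_le_mul_right (by rw [← sq]; exact h1) (norm_pos_iff.2 h0)

end Vale.Agent.P078.Finite
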